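import Mathlib

namespace Vale.Agent.Lib.P057

/-- `A` contains a `k`-term arithmetic progression `a, a + d, …, a + (k-1) d`
with common difference `d > 0`. -/
def HasAP (k : ℕ) (A : Set ℕ) : Prop :=
  ∃ a d : ℕ, 0 < d ∧ ∀ i < k, a + i * d ∈ A

/-- `r_k(N)`: the largest cardinality of a subset of `{1, …, N}` containing no
`k`-term arithmetic progression. -/
noncomputable def apFreeMax (k N : ℕ) : ℕ :=
  sSup {m | ∃ S : Finset ℕ, S ⊆ Finset.Icc 1 N ∧ ¬ HasAP k (S : Set ℕ) ∧ S.card = m}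

end Vale.Agent.Lib.P057
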