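import Mathlib
import Vale.Agent.Lib.P057.Defs

namespace Vale.Agent.Lib.P057

theorem not_hasAP_empty (k : ℕ) (hk : 1 ≤ k) : ¬ HasAP k (∅ : Set ℕ) := by
  rintro ⟨a, d, _, h⟩
  exact h 0 hk

theorem HasAP.mono {k : ℕ} {A B : Set ℕ} (h : A ⊆ B) (hA : HasAP k A) : HasAP k B := by
  obtain ⟨a, d, hd, hA⟩ := hA
  exact ⟨a, d, hd, fun i hi => h (hA i hi)⟩

theorem apFreeMax_set_bdd (k N : ℕ) :
    BddAbove {m | ∃ S : Finset ℕ, S ⊆ Finset.Icc 1 N ∧ ¬ HasAP k (S : Set ℕ) ∧ S.card = m} := by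
  refine ⟨N, ?_⟩
  rintro m ⟨S, hS, _, rfl⟩
  have := Finset.card_le_card hS
  simpa using this

theorem apFreeMax_set_nonempty (k N : ℕ) (hk : 1 ≤ k) :
    {m | ∃ S : Finset ℕ, S ⊆ Finset.Icc 1 N ∧ ¬ HasAP k (S : Set ℕ) ∧ S.card = m}.Nonempty := by
  refine ⟨0, ∅, Finset.empty_subset _, ?_, rfl⟩
  simpa using not_hasAP_empty k hk

theorem apFreeMax_spec (k N : ℕ) (hk : 1 ≤ k) :
    ∃ S : Finset ℕ, S ⊆ Finset.Icc 1 N ∧ ¬ HasAP k (S : Set ℕ) ∧ S.card = apFreeMax k N :=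
  Nat.sSup_mem (apFreeMax_set_nonempty k N hk) (apFreeMax_set_bdd k N)

theorem le_apFreeMax (k N : ℕ) (S : Finset ℕ) (hS : S ⊆ Finset.Icc 1 N)
    (hAP : ¬ HasAP k (S : Set ℕ)) : S.card ≤ apFreeMax k N :=
  le_csSup (apFreeMax_set_bdd k N) ⟨S, hS, hAP, rfl⟩

theorem apFreeMax_le (k N : ℕ) (hk : 1 ≤ k) : apFreeMax k N ≤ N := by
  obtain ⟨S, hS, _, hc⟩ := apFreeMax_spec k N hk
  rw [← hc]
  have := Finset.card_le_card hS
  simpa using this

/-- Translation invariance: an AP-free subset of `{t+1, …, t+N}` has at most `r_k(N)` elements. -/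
theorem card_le_apFreeMax_of_subset_Icc (k N t : ℕ) (T : Finset ℕ)
    (hT : T ⊆ Finset.Icc (t + 1) (t + N)) (hAP : ¬ HasAP k (T : Set ℕ)) :
    T.card ≤ apFreeMax k N := by
  have hinj : Set.InjOn (fun x : ℕ => x - t) (T : Set ℕ) := by
    intro x hx y hy hxy
    have hx' := Finset.mem_Icc.mp (hT hx)
    have hy' := Finset.mem_Icc.mp (hT hy)
    simp only at hxy
    omega
  have hcard : (T.image (fun x : ℕ => x - t)).card = T.card := Finset.card_image_of_injOn hinj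
  rw [← hcard]
  apply le_apFreeMax
  · intro y hy
    obtain ⟨x, hx, rfl⟩ := Finset.mem_image.mp hy
    have hx' := Finset.mem_Icc.mp (hT hx)
    rw [Finset.mem_Icc]
    omega
  · rintro ⟨a, d, hd, h⟩
    apply hAP
    refine ⟨a + t, d, hd, fun i hi => ?_⟩
    have := h i hi
    rw [Finset.mem_coe, Finset.mem_image] at this
    obtain ⟨x, hx, hxe⟩ := this
    have hx' := Finset.mem_Icc.mp (hT hx)
    have : a + t + i * d = x := by omega
    rw [this]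
    exact hx

end Vale.Agent.Lib.P057
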