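import Mathlib
import Vale.Agent.Lib.P057.Defs
import Vale.Agent.Lib.P057.Basic

namespace Vale.Agent.Lib.P057

open Finset

/-- The `i`-th block of the construction: a translate of `B (2 i + e)` into
`(2 * 2^(2i+e), 3 * 2^(2i+e)]`. -/
def block (B : ℕ → Finset ℕ) (e i : ℕ) : Finset ℕ :=
  (B (2 * i + e)).image (fun b => 2 ^ (2 * i + e + 1) + b)

/-- The union of all blocks. -/
def blockUnion (B : ℕ → Finset ℕ) (e : ℕ) : Set ℕ := {n | ∃ i, n ∈ block B e i}

theorem mem_block_bounds (B : ℕ → Finset ℕ) (hB1 : ∀ j, B j ⊆ Icc 1 (2 ^ j)) (e i n : ℕ)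
    (hn : n ∈ block B e i) : 2 * 2 ^ (2 * i + e) < n ∧ n ≤ 3 * 2 ^ (2 * i + e) := by
  unfold block at hn
  obtain ⟨b, hb, rfl⟩ := Finset.mem_image.mp hn
  have hb' := Finset.mem_Icc.mp (hB1 _ hb)
  rw [pow_succ]
  omega

theorem pow_gap (e i i' : ℕ) (h : i < i') : 4 * 2 ^ (2 * i + e) ≤ 2 ^ (2 * i' + e) := by
  have h1 : 2 * i + e + 2 ≤ 2 * i' + e := by omega
  have h2 : 2 ^ (2 * i + e + 2) ≤ 2 ^ (2 * i' + e) := Nat.pow_le_pow_right (by norm_num) h1
  have h3 : 2 ^ (2 * i + e + 2) = 4 * 2 ^ (2 * i + e) := by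
    rw [pow_add]; ring
  omega

theorem mem_block_of_range (B : ℕ → Finset ℕ) (hB1 : ∀ j, B j ⊆ Icc 1 (2 ^ j)) (e I n : ℕ)
    (hn : n ∈ blockUnion B e) (h1 : 2 ^ (2 * I + e) < n) (h2 : n ≤ 3 * 2 ^ (2 * I + e)) :
    n ∈ block B e I := by
  obtain ⟨i', hi'⟩ := hn
  have hb := mem_block_bounds B hB1 e i' n hi'
  rcases lt_trichotomy i' I with h | h | h
  · have := pow_gap e i' I h
    omega
  · rw [← h]; exact hi'
  · have := pow_gap e I i' h
    omega

theorem blockUnion_pos (B : ℕ → Finset ℕ) (hB1 : ∀ j, B j ⊆ Icc 1 (2 ^ j)) (e n : ℕ)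
    (hn : n ∈ blockUnion B e) : 0 < n := by
  obtain ⟨i, hi⟩ := hn
  have := mem_block_bounds B hB1 e i n hi
  omega

/-- The union of the blocks contains no `k`-term progression when `k ≥ 3`. -/
theorem blockUnion_not_hasAP (k : ℕ) (hk : 3 ≤ k) (B : ℕ → Finset ℕ)
    (hB1 : ∀ j, B j ⊆ Icc 1 (2 ^ j)) (hB2 : ∀ j, ¬ HasAP k (B j : Set ℕ)) (e : ℕ) :
    ¬ HasAP k (blockUnion B e) := by
  rintro ⟨a, d, hd, h⟩
  -- the last term and its block
  have hz := h (k - 1) (by omega)
  obtain ⟨I, hI⟩ := hz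
  have hzb := mem_block_bounds B hB1 e I _ hI
  set N := 2 ^ (2 * I + e) with hN
  -- the term before the last
  have hy := h (k - 2) (by omega)
  have hyz : a + (k - 1) * d = a + (k - 2) * d + d := by
    have : k - 1 = (k - 2) + 1 := by omega
    rw [this]; ring
  have hyd : d ≤ a + (k - 2) * d := by
    have : 1 ≤ k - 2 := by omega
    have := Nat.mul_le_mul_right d this
    omega
  have hyI : a + (k - 2) * d ∈ block B e I := by
    apply mem_block_of_range B hB1 e I _ hy
    · by_contra hcon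
      rw [not_lt] at hcon
      omega
    · omega
  have hyb := mem_block_bounds B hB1 e I _ hyI
  have hdN : d < N := by omega
  -- all terms are in block I
  have hall : ∀ t, t ≤ k - 1 → a + (k - 1 - t) * d ∈ block B e I := by
    intro t
    induction t with
    | zero => intro _; simpa using hI
    | succ t ih =>
      intro ht
      have hprev := ih (by omega)
      have hb := mem_block_bounds B hB1 e I _ hprev
      have heq : a + (k - 1 - t) * d = a + (k - 1 - (t + 1)) * d + d := by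
        have : k - 1 - t = (k - 1 - (t + 1)) + 1 := by omega
        rw [this]; ring
      apply mem_block_of_range B hB1 e I _ (h _ (by omega))
      · omega
      · omega
  apply hB2 (2 * I + e)
  have hmem : ∀ i < k, ∃ b ∈ B (2 * I + e), a + i * d = 2 ^ (2 * I + e + 1) + b := by
    intro i hi
    have := hall (k - 1 - i) (by omega)
    have hki : k - 1 - (k - 1 - i) = i := by omega
    rw [hki] at this
    unfold block at this
    obtain ⟨b, hb, hbe⟩ := Finset.mem_image.mp this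
    exact ⟨b, hb, hbe.symm⟩
  refine ⟨a - 2 ^ (2 * I + e + 1), d, hd, fun i hi => ?_⟩
  obtain ⟨b0, _, hb0e⟩ := hmem 0 (by omega)
  obtain ⟨b, hb, hbe⟩ := hmem i hi
  have : a - 2 ^ (2 * I + e + 1) + i * d = b := by omega
  rw [this]
  exact hb

end Vale.Agent.Lib.P057
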