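import Mathlib
import Vale.Agent.Lib.P057.Defs
import Vale.Agent.Lib.P057.Basic

namespace Vale.Agent.Lib.P057

open Finset

/-- Reciprocal sum of an AP-free set over one dyadic block. -/
theorem dyadic_block_bound (k : ℕ) (A : Set ℕ) (hAP : ¬ HasAP k A) (j : ℕ) :
    ∑ n ∈ Ico (2 ^ j) (2 ^ (j + 1)), A.indicator (fun n : ℕ => (1 : ℝ) / n) n
      ≤ (apFreeMax k (2 ^ j) : ℝ) / 2 ^ j := by
  classical
  set T : Finset ℕ := (Ico (2 ^ j) (2 ^ (j + 1))).filter (fun n => n ∈ A) with hT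
  have hpos : 0 < 2 ^ j := Nat.pos_of_ne_zero (by positivity)
  have h1 : ∑ n ∈ Ico (2 ^ j) (2 ^ (j + 1)), A.indicator (fun n : ℕ => (1 : ℝ) / n) n
      = ∑ n ∈ T, (1 : ℝ) / n := by
    rw [hT, Finset.sum_filter]
    refine Finset.sum_congr rfl fun n _ => ?_
    by_cases hn : n ∈ A
    · simp [hn]
    · simp [hn]
  have h2 : ∑ n ∈ T, (1 : ℝ) / n ≤ ∑ _n ∈ T, (1 : ℝ) / 2 ^ j := by
    refine Finset.sum_le_sum fun n hn => ?_
    have hn' : 2 ^ j ≤ n := (Finset.mem_Ico.mp (Finset.mem_filter.mp hn).1).1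
    have : ((2 : ℝ) ^ j) ≤ (n : ℝ) := by exact_mod_cast hn'
    exact one_div_le_one_div_of_le (by positivity) this
  have h3 : T.card ≤ apFreeMax k (2 ^ j) := by
    apply card_le_apFreeMax_of_subset_Icc k (2 ^ j) (2 ^ j - 1) T
    · intro n hn
      have hn' := Finset.mem_Ico.mp (Finset.mem_filter.mp hn).1
      rw [Finset.mem_Icc]
      rw [pow_succ] at hn'
      omega
    · intro h
      apply hAP
      refine HasAP.mono ?_ h
      intro n hn
      exact (Finset.mem_filter.mp (Finset.mem_coe.mp hn)).2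
  rw [h1]
  refine h2.trans ?_
  rw [Finset.sum_const, nsmul_eq_mul, mul_one_div]
  have : (T.card : ℝ) ≤ (apFreeMax k (2 ^ j) : ℝ) := by exact_mod_cast h3
  exact div_le_div_of_nonneg_right this (by positivity)

theorem sum_range_two_pow (f : ℕ → ℝ) (J : ℕ) :
    ∑ n ∈ range (2 ^ J), f n = f 0 + ∑ j ∈ range J, ∑ n ∈ Ico (2 ^ j) (2 ^ (j + 1)), f n := by
  induction J with
  | zero => simp
  | succ J ih =>
    rw [Finset.sum_range_succ, ← add_assoc, ← ih]
    have h := Finset.sum_Ico_consecutive f (Nat.zero_le (2 ^ J))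
      (Nat.pow_le_pow_right (by norm_num : 0 < 2) (Nat.le_succ J))
    rw [← Finset.range_eq_Ico, ← Finset.range_eq_Ico] at h
    exact h.symm

/-- If the dyadic series converges then every AP-free set has a convergent reciprocal sum. -/
theorem summable_of_dyadic (k : ℕ)
    (hsum : Summable (fun j : ℕ => (apFreeMax k (2 ^ j) : ℝ) / 2 ^ j))
    (A : Set ℕ) (hAP : ¬ HasAP k A) :
    Summable (A.indicator (fun n : ℕ => (1 : ℝ) / n)) := by
  have hnonneg : ∀ n, 0 ≤ A.indicator (fun n : ℕ => (1 : ℝ) / n) n := by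
    intro n
    apply Set.indicator_nonneg
    intro m _
    positivity
  refine summable_of_sum_range_le (c := ∑' j : ℕ, (apFreeMax k (2 ^ j) : ℝ) / 2 ^ j) hnonneg ?_
  intro n
  have hn : n ≤ 2 ^ n := Nat.lt_two_pow_self.le
  have h1 : ∑ i ∈ range n, A.indicator (fun n : ℕ => (1 : ℝ) / n) i
      ≤ ∑ i ∈ range (2 ^ n), A.indicator (fun n : ℕ => (1 : ℝ) / n) i := by
    apply Finset.sum_le_sum_of_subset_of_nonneg
    · exact Finset.range_mono hn
    · intro i _ _
      exact hnonneg i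
  refine h1.trans ?_
  rw [sum_range_two_pow]
  have h0 : A.indicator (fun n : ℕ => (1 : ℝ) / n) 0 = 0 := by
    by_cases h : (0 : ℕ) ∈ A
    · simp [h]
    · simp [h]
  rw [h0, zero_add]
  have h2 : ∑ j ∈ range n, ∑ i ∈ Ico (2 ^ j) (2 ^ (j + 1)), A.indicator (fun n : ℕ => (1 : ℝ) / n) i
      ≤ ∑ j ∈ range n, (apFreeMax k (2 ^ j) : ℝ) / 2 ^ j :=
    Finset.sum_le_sum fun j _ => dyadic_block_bound k A hAP j
  refine h2.trans ?_
  apply hsum.sum_le_tsum
  intro j _
  positivity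

end Vale.Agent.Lib.P057
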