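import Mathlib
import Vale.Agent.Lib.P057.Defs
import Vale.Agent.Lib.P057.Basic
import Vale.Agent.Lib.P057.Upper
import Vale.Agent.Lib.P057.Lower

namespace Vale.Agent.Lib.P057

open Finset

theorem block_card (B : ℕ → Finset ℕ) (e i : ℕ) : (block B e i).card = (B (2 * i + e)).card := by
  unfold block
  apply Finset.card_image_of_injective
  intro x y hxy
  simpa using hxy

theorem block_disjoint (B : ℕ → Finset ℕ) (hB1 : ∀ j, B j ⊆ Icc 1 (2 ^ j)) (e : ℕ) (s : Set ℕ) :
    s.PairwiseDisjoint (block B e) := by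
  intro i _ i' _ hii'
  rw [Function.onFun, Finset.disjoint_left]
  intro n hn hn'
  have h1 := mem_block_bounds B hB1 e i n hn
  have h2 := mem_block_bounds B hB1 e i' n hn'
  rcases lt_or_gt_of_ne hii' with h | h
  · have := pow_gap e i i' h
    omega
  · have := pow_gap e i' i h
    omega

theorem blockUnion_not_summable (k : ℕ) (B : ℕ → Finset ℕ)
    (hB1 : ∀ j, B j ⊆ Icc 1 (2 ^ j)) (hB3 : ∀ j, (B j).card = apFreeMax k (2 ^ j)) (e : ℕ)
    (hdiv : ¬ Summable (fun i : ℕ => (apFreeMax k (2 ^ (2 * i + e)) : ℝ) / 2 ^ (2 * i + e))) :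
    ¬ Summable ((blockUnion B e).indicator (fun n : ℕ => (1 : ℝ) / n)) := by
  intro hs
  apply hdiv
  set g : ℕ → ℝ := (blockUnion B e).indicator (fun n : ℕ => (1 : ℝ) / n) with hg
  have hgnonneg : ∀ n, 0 ≤ g n := by
    intro n
    apply Set.indicator_nonneg
    intro m _
    positivity
  refine summable_of_sum_range_le (c := 3 * ∑' n, g n) (fun i => by positivity) ?_
  intro I
  have hblock : ∀ i, (apFreeMax k (2 ^ (2 * i + e)) : ℝ) / 2 ^ (2 * i + e)
      ≤ 3 * ∑ n ∈ block B e i, g n := by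
    intro i
    have hcard : ((block B e i).card : ℝ) = (apFreeMax k (2 ^ (2 * i + e)) : ℝ) := by
      rw [block_card, hB3]
    have hterm : ∀ n ∈ block B e i, (1 : ℝ) / (3 * 2 ^ (2 * i + e)) ≤ g n := by
      intro n hn
      have hb := mem_block_bounds B hB1 e i n hn
      have hmem : n ∈ blockUnion B e := ⟨i, hn⟩
      rw [hg, Set.indicator_of_mem hmem]
      have hnpos : (0 : ℝ) < n := by
        have : 0 < n := by omega
        exact_mod_cast this
      have hle : (n : ℝ) ≤ 3 * 2 ^ (2 * i + e) := by exact_mod_cast hb.2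
      exact one_div_le_one_div_of_le hnpos hle
    have hsum : ((block B e i).card : ℝ) * ((1 : ℝ) / (3 * 2 ^ (2 * i + e)))
        ≤ ∑ n ∈ block B e i, g n := by
      have := Finset.card_nsmul_le_sum (block B e i) g _ hterm
      rwa [nsmul_eq_mul] at this
    rw [hcard] at hsum
    have h2pos : (0 : ℝ) < 2 ^ (2 * i + e) := by positivity
    calc (apFreeMax k (2 ^ (2 * i + e)) : ℝ) / 2 ^ (2 * i + e)
        = 3 * ((apFreeMax k (2 ^ (2 * i + e)) : ℝ) * ((1 : ℝ) / (3 * 2 ^ (2 * i + e)))) := by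
          field_simp
      _ ≤ 3 * ∑ n ∈ block B e i, g n := by
          apply mul_le_mul_of_nonneg_left hsum (by norm_num)
  calc ∑ i ∈ range I, (apFreeMax k (2 ^ (2 * i + e)) : ℝ) / 2 ^ (2 * i + e)
      ≤ ∑ i ∈ range I, 3 * ∑ n ∈ block B e i, g n := Finset.sum_le_sum fun i _ => hblock i
    _ = 3 * ∑ n ∈ (range I).biUnion (block B e), g n := by
        rw [← Finset.mul_sum, Finset.sum_biUnion (block_disjoint B hB1 e _)]
    _ ≤ 3 * ∑' n, g n := by
        apply mul_le_mul_of_nonneg_left _ (by norm_num)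
        exact hs.sum_le_tsum _ (fun n _ => hgnonneg n)

/-- Erdős's conjecture for `k`-term progressions is equivalent to the convergence of the dyadic
series `∑_j r_k(2^j) / 2^j`. -/
theorem erdos_iff_dyadic (k : ℕ) (hk : 3 ≤ k) :
    (∀ A : Set ℕ, (∀ a ∈ A, 0 < a) → ¬ Summable (fun a : A => (1 : ℝ) / (a : ℕ)) → HasAP k A)
      ↔ Summable (fun j : ℕ => (apFreeMax k (2 ^ j) : ℝ) / 2 ^ j) := by
  constructor
  · intro hE
    by_contra hns
    have hsplit : ∃ e : ℕ,
        ¬ Summable (fun i : ℕ => (apFreeMax k (2 ^ (2 * i + e)) : ℝ) / 2 ^ (2 * i + e)) := by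
      by_contra hcon
      rw [not_exists] at hcon
      have h0 := not_not.mp (hcon 0)
      have h1 := not_not.mp (hcon 1)
      apply hns
      set f : ℕ → ℝ := fun j : ℕ => (apFreeMax k (2 ^ j) : ℝ) / 2 ^ j with hf
      have h0' : Summable (fun i : ℕ => f (2 * i)) := by
        simpa only [Nat.add_zero] using h0
      have h1' : Summable (fun i : ℕ => f (2 * i + 1)) := h1
      exact (HasSum.even_add_odd h0'.hasSum h1'.hasSum).summable
    obtain ⟨e, he⟩ := hsplit
    choose B hB1 hB2 hB3 using fun j => apFreeMax_spec k (2 ^ j) (by omega)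
    have hnotsum := blockUnion_not_summable k B hB1 hB3 e he
    have hnoAP := blockUnion_not_hasAP k hk B hB1 hB2 e
    apply hnoAP
    apply hE (blockUnion B e) (fun a ha => blockUnion_pos B hB1 e a ha)
    intro hsub
    apply hnotsum
    exact summable_subtype_iff_indicator.mp hsub
  · intro hsum A _ hA
    by_contra hAP
    apply hA
    exact summable_subtype_iff_indicator.mpr (summable_of_dyadic k hsum A hAP)

end Vale.Agent.Lib.P057
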